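import Mathlib
import Vale.Agent.P204.General.Basics
import Vale.Agent.P204.Torus.Alg

/-!
# P204 bridge: coordinate lemmas
-/

open Matrix
open scoped ContDiff Topology

namespace Vale.Agent.P204.General

open Vale.Agent.P204.Torus

section Pullback

variable {E F : Type*} [NormedAddCommGroup E] [NormedSpace ℝ E] [NormedAddCommGroup F]
  [NormedSpace ℝ F]

/-- The pullback of a closed alternating field is closed. -/
theorem closed_pullback {om : E → E →L[ℝ] E →L[ℝ] ℝ} {h : F → E} {p : F}
    (hh : ContDiffAt ℝ 2 h p) (ho : DifferentiableAt ℝ om (h p))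
    (halt : ∀ a b, om (h p) a b = -om (h p) b a)
    (hcl : ∀ a b d, fderiv ℝ om (h p) a b d + fderiv ℝ om (h p) b d a
      + fderiv ℝ om (h p) d a b = 0) (a b d : F) :
    fderiv ℝ (fun q => om (h q) (fderiv ℝ h q b) (fderiv ℝ h q d)) p a
      + fderiv ℝ (fun q => om (h q) (fderiv ℝ h q d) (fderiv ℝ h q a)) p b
      + fderiv ℝ (fun q => om (h q) (fderiv ℝ h q a) (fderiv ℝ h q b)) p d = 0 := by
  have hd : DifferentiableAt ℝ (fderiv ℝ h) p :=
    (hh.fderiv_right (m := 1) (by norm_num)).differentiableAt (by norm_num)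
  have hs := hh.isSymmSndFDerivAt (by simp)
  have key : ∀ t u w, fderiv ℝ (fun q => om (h q) (fderiv ℝ h q u) (fderiv ℝ h q w)) p t
      = fderiv ℝ om (h p) (fderiv ℝ h p t) (fderiv ℝ h p u) (fderiv ℝ h p w)
        + om (h p) (fderiv ℝ (fderiv ℝ h) p t u) (fderiv ℝ h p w)
        + om (h p) (fderiv ℝ h p u) (fderiv ℝ (fderiv ℝ h) p t w) := by
    intro t u w
    have hg : HasFDerivAt h (fderiv ℝ h p) p := (hh.differentiableAt (by norm_num)).hasFDerivAt
    have h0 := HasFDerivAt.comp (g := om) p ho.hasFDerivAt hg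
    have hu := hd.hasFDerivAt.clm_apply (hasFDerivAt_const u p)
    have hw := hd.hasFDerivAt.clm_apply (hasFDerivAt_const w p)
    have := ((h0.clm_apply hu).clm_apply hw).fderiv
    simp only [Function.comp_apply] at this
    rw [this]
    simp
    ring
  rw [key a b d, key b d a, key d a b]
  have h1 := hcl (fderiv ℝ h p a) (fderiv ℝ h p b) (fderiv ℝ h p d)
  rw [hs.eq b a, hs.eq d b, hs.eq a d]
  linarith [halt (fderiv ℝ (fderiv ℝ h) p a b) (fderiv ℝ h p d),
    halt (fderiv ℝ (fderiv ℝ h) p d a) (fderiv ℝ h p b),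
    halt (fderiv ℝ (fderiv ℝ h) p b d) (fderiv ℝ h p a)]

/-- A bilinear field with smooth values is smooth. -/
theorem contDiffOn_bilin [FiniteDimensional ℝ E] {s : Set F} {n : WithTop ℕ∞}
    {om : F → E →L[ℝ] E →L[ℝ] ℝ} (h : ∀ v w, ContDiffOn ℝ n (fun q => om q v w) s) :
    ContDiffOn ℝ n om s := by
  refine contDiffOn_clm_apply.2 fun v => contDiffOn_clm_apply.2 fun w => h v w

theorem fderiv_bilin_apply {om : F → E →L[ℝ] E →L[ℝ] ℝ} {p : F} (ho : DifferentiableAt ℝ om p)
    (a : F) (b d : E) : fderiv ℝ (fun q => om q b d) p a = fderiv ℝ om p a b d := by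
  have := ((ho.hasFDerivAt.clm_apply (hasFDerivAt_const b p)).clm_apply
    (hasFDerivAt_const d p)).fderiv
  rw [this]; simp

end Pullback

/-- The bilinear map of a matrix. -/
noncomputable def toBil (M : M4) : Pt →L[ℝ] Pt →L[ℝ] ℝ :=
  LinearMap.toContinuousLinearMap
    ((LinearMap.toContinuousLinearMap (𝕜 := ℝ) (E := Pt) (F' := ℝ)).toLinearMap ∘ₗ
      Matrix.toLinearMap₂' ℝ M)

theorem toBil_apply (M : M4) (v w : Pt) : toBil M v w = ev M v w := by
  simp [toBil, ev, Matrix.toLinearMap₂'_apply']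

theorem pt_sum_single (v : Pt) : v = ∑ i, v i • Pi.single (M := fun _ => ℝ) i 1 := by
  funext k; simp [Finset.sum_apply, Pi.single_apply]

theorem diffAt_sum_smul {X G : Type*} [NormedAddCommGroup X] [NormedSpace ℝ X]
    [NormedAddCommGroup G] [NormedSpace ℝ G] {x : X} {c : Fin 4 → Fin 4 → X → ℝ}
    (hc : ∀ i k, DifferentiableAt ℝ (c i k) x) (T : Fin 4 → Fin 4 → G) :
    DifferentiableAt ℝ (fun p => ∑ i, ∑ k, c i k p • T i k) x :=
  DifferentiableAt.fun_sum fun i _ => DifferentiableAt.fun_sum fun k _ => (hc i k).smul_const _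

/-- A matrix field closed on basis vectors is closed. -/
theorem toBil_closed {a : Pt → M4} {q : Pt} (hs : ∀ i k, DifferentiableAt ℝ (fun p => a p i k) q)
    (hcl : ∀ i j k, pd i (fun p => a p j k) q + pd j (fun p => a p k i) q
      + pd k (fun p => a p i j) q = 0) :
    DifferentiableAt ℝ (fun p => toBil (a p)) q ∧
      ∀ u v w, fderiv ℝ (fun p => toBil (a p)) q u v w + fderiv ℝ (fun p => toBil (a p)) q v w u
        + fderiv ℝ (fun p => toBil (a p)) q w u v = 0 := by
  have hd : DifferentiableAt ℝ (fun p => toBil (a p)) q := by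
    have : (fun p => toBil (a p)) = fun p => ∑ i, ∑ k, a p i k • toBil (Matrix.single i k 1) := by
      funext p; ext v w
      simp [toBil_apply, ev, mulVec, dotProduct, Matrix.single, Fin.sum_univ_four]
      ring
    rw [this]
    exact diffAt_sum_smul (c := fun i k p => a p i k) hs fun i k => toBil (Matrix.single i k 1)
  refine ⟨hd, fun u v w => ?_⟩
  have hB : ∀ i j k, fderiv ℝ (fun p => toBil (a p)) q (Pi.single i 1) (Pi.single j 1)
      (Pi.single k 1) = pd i (fun p => a p j k) q := fun i j k => by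
    rw [← fderiv_bilin_apply hd]
    simp only [toBil_apply, ev_single, pd]
  set D := fderiv ℝ (fun p => toBil (a p)) q
  have e1 : ∀ i j w, D (Pi.single i 1) (Pi.single j 1) w + D (Pi.single j 1) w (Pi.single i 1)
      + D w (Pi.single i 1) (Pi.single j 1) = 0 := fun i j w => by
    rw [pt_sum_single w]
    simp only [map_sum, map_smul, _root_.sum_apply, _root_.smul_apply, smul_eq_mul,
      ← Finset.sum_add_distrib]
    refine Finset.sum_eq_zero fun k _ => ?_
    rw [hB, hB, hB]; linear_combination w k * hcl i j k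
  have e2 : ∀ i v w, D (Pi.single i 1) v w + D v w (Pi.single i 1)
      + D w (Pi.single i 1) v = 0 := fun i v w => by
    rw [pt_sum_single v]
    simp only [map_sum, map_smul, _root_.sum_apply, _root_.smul_apply, smul_eq_mul,
      ← Finset.sum_add_distrib]
    exact Finset.sum_eq_zero fun k _ => by linear_combination v k * e1 i k w
  rw [pt_sum_single u]
  simp only [map_sum, map_smul, _root_.sum_apply, _root_.smul_apply, smul_eq_mul,
    ← Finset.sum_add_distrib]
  exact Finset.sum_eq_zero fun k _ => by linear_combination u k * e2 k v w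

/-- The reflection of the first coordinate, or the identity. -/
def flipM (s : ℝ) : M4 := diagonal ![s, 1, 1, 1]

theorem flipM_mul {s : ℝ} (hs : s * s = 1) : flipM s * flipM s = 1 := by
  rw [flipM, diagonal_mul_diagonal, ← diagonal_one]
  congr 1; funext i; fin_cases i <;> simp [hs]

theorem flipM_transpose (s : ℝ) : (flipM s)ᵀ = flipM s := diagonal_transpose _

theorem wedge_flipM (s : ℝ) (M : M4) :
    wedge (flipM s * M * flipM s) (flipM s * M * flipM s) = s * wedge M M := by
  simp [wedge, flipM, mul_diagonal, diagonal_mul]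
  ring

theorem continuous_psi {S : Set Pt} {j : Pt → M4} (hj : ∀ i k, ContinuousOn (fun p => j p i k) S) :
    ContinuousOn (fun p => Torus.psi (j p)) S := by
  simp only [Torus.psi, det4, dualBiv, wedge, mulVec, dotProduct]
  fun_prop

/-- The orientation sign is constant on a connected set of complex structures. -/
theorem oSgn_const {S : Set Pt} (hS : IsPreconnected S) {j : Pt → M4}
    (hj : ∀ i k, ContinuousOn (fun p => j p i k) S) (hsq : ∀ p ∈ S, j p * j p = -1) :
    ∃ s : ℝ, (s = 1 ∨ s = -1) ∧ ∀ p ∈ S, oSgn (j p) = s := by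
  by_cases h : ∀ p ∈ S, 0 < Torus.psi (j p)
  · exact ⟨1, Or.inl rfl, fun p hp => if_pos (h p hp)⟩
  · refine ⟨-1, Or.inr rfl, fun p hp => if_neg fun hpos => ?_⟩
    push Not at h
    obtain ⟨p₀, hp₀, hneg⟩ := h
    obtain ⟨r, hr, hr0⟩ := hS.intermediate_value hp₀ hp (continuous_psi hj)
      (Set.mem_Icc.2 ⟨hneg, hpos.le⟩)
    exact psi_ne_zero (hsq r hr) hr0

theorem flip_pos {s : ℝ} (hs : s = 1 ∨ s = -1) {j : M4} (hj : j * j = -1) (ho : oSgn j = s)
    {M : M4} (hM : Mᵀ = -M) (h : (flipM s * j * flipM s)ᵀ * M * (flipM s * j * flipM s) = -M) :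
    0 ≤ wedge M M := by
  have hQ : flipM s * flipM s = 1 := flipM_mul (by rcases hs with h | h <;> simp [h])
  set A := flipM s * M * flipM s
  have hA : Aᵀ = -A := by
    simp [A, transpose_mul, flipM_transpose, hM, Matrix.mul_assoc]
  have h1 : jᵀ * A * j = -A := by
    calc jᵀ * A * j = (flipM s * flipM s) * (jᵀ * A * j) * (flipM s * flipM s) := by
          rw [hQ, Matrix.one_mul, Matrix.mul_one]
      _ = flipM s * ((flipM s * j * flipM s)ᵀ * M * (flipM s * j * flipM s)) * flipM s := by
          simp only [A, transpose_mul, flipM_transpose, Matrix.mul_assoc]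
      _ = -A := by rw [h, Matrix.mul_neg, Matrix.neg_mul]
  have h2 := wedge_anti_nonneg hj (isAnti_of_eq hA h1)
  rw [ho, wedge_flipM, ← mul_assoc] at h2
  rcases hs with rfl | rfl <;> simpa using h2

end Vale.Agent.P204.General
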