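import Mathlib
import Vale.Agent.P204.General.Statement
import Vale.Agent.P204.General.Bridge.Coord

/-!
# P204 bridge: facts about charts of the manifold
-/

open Function Set Filter Matrix
open scoped Manifold ContDiff Topology

namespace Vale.Agent.P204.General

universe u
variable {X : Type u} [TopologicalSpace X] [ChartedSpace R4 X] [IsManifold (𝓡 4) ∞ X]

theorem chartInvDeriv_left (c : X) {q : R4} (hq : q ∈ (extChartAt (𝓡 4) c).target) :
    (mfderiv (𝓡 4) (𝓡 4) (extChartAt (𝓡 4) c) ((extChartAt (𝓡 4) c).symm q)).comp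
      (chartInvDeriv c q) = ContinuousLinearMap.id ℝ R4 := by
  have := mfderiv_extChartAt_comp_mfderivWithin_extChartAt_symm (I := 𝓡 4) hq
  rw [ModelWithCorners.range_eq_univ, mfderivWithin_univ] at this
  exact this

theorem chartInvDeriv_right (c : X) {q : R4} (hq : q ∈ (extChartAt (𝓡 4) c).target) :
    (chartInvDeriv c q).comp
      (mfderiv (𝓡 4) (𝓡 4) (extChartAt (𝓡 4) c) ((extChartAt (𝓡 4) c).symm q))
      = ContinuousLinearMap.id ℝ _ := by
  have := mfderivWithin_extChartAt_symm_comp_mfderiv_extChartAt (I := 𝓡 4) hq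
  rw [ModelWithCorners.range_eq_univ, mfderivWithin_univ] at this
  exact this

/-- The endomorphism field in the chart at `c`. -/
noncomputable def jCoord (J : EndField X) (c : X) (q : R4) : R4 →L[ℝ] R4 :=
  (mfderiv (𝓡 4) (𝓡 4) (extChartAt (𝓡 4) c) ((extChartAt (𝓡 4) c).symm q)).comp
    ((J ((extChartAt (𝓡 4) c).symm q)).comp (chartInvDeriv c q))

theorem jCoord_spec (J : EndField X) (c : X) {q : R4} (hq : q ∈ (extChartAt (𝓡 4) c).target)
    (v : R4) : chartInvDeriv c q (jCoord J c q v) =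
      J ((extChartAt (𝓡 4) c).symm q) (chartInvDeriv c q v) := by
  have := DFunLike.congr_fun (chartInvDeriv_right c hq)
    (J ((extChartAt (𝓡 4) c).symm q) (chartInvDeriv c q v))
  exact this

omit [IsManifold (𝓡 4) ∞ X] in
theorem jCoord_smooth {J : EndField X} (hJ : IsAlmostComplexStructure J) (c : X) :
    ContDiffOn ℝ ∞ (jCoord J c) (extChartAt (𝓡 4) c).target :=
  contDiffOn_clm_apply.2 fun v => hJ.2 c v

variable {N : ℕ}

/-- A smooth embedding, read in the chart at `c`. -/
noncomputable def embRead (e : X → Amb N) (c : X) : R4 → Amb N :=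
  e ∘ (extChartAt (𝓡 4) c).symm

/-- The differential of a smooth embedding. -/
noncomputable def embDeriv (e : X → Amb N) (x : X) : TangentSpace (𝓡 4) x →L[ℝ] Amb N :=
  mfderiv (𝓡 4) 𝓘(ℝ, Amb N) e x

theorem embRead_smooth {e : X → Amb N} (he : ContMDiff (𝓡 4) 𝓘(ℝ, Amb N) ∞ e) (c : X) :
    ContDiffOn ℝ ∞ (embRead e c) (extChartAt (𝓡 4) c).target :=
  contMDiffOn_iff_contDiffOn.1 (he.comp_contMDiffOn (contMDiffOn_extChartAt_symm c))

theorem embRead_deriv {e : X → Amb N} (he : ContMDiff (𝓡 4) 𝓘(ℝ, Amb N) ∞ e) (c : X) {q : R4}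
    (hq : q ∈ (extChartAt (𝓡 4) c).target) (v : R4) :
    fderiv ℝ (embRead e c) q v =
      embDeriv e ((extChartAt (𝓡 4) c).symm q) (chartInvDeriv c q v) := by
  have h1 : MDifferentiableAt (𝓡 4) (𝓡 4) (extChartAt (𝓡 4) c).symm q :=
    ((contMDiffOn_extChartAt_symm (n := ∞) c).contMDiffAt
      ((isOpen_extChartAt_target c).mem_nhds hq)).mdifferentiableAt (by norm_num)
  have h2 := mfderiv_comp q ((he _).mdifferentiableAt (by norm_num)) h1
  rw [embRead, ← mfderiv_eq_fderiv, h2]
  rfl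

end Vale.Agent.P204.General
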