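import Mathlib
import Vale.Agent.P204.General.Bridge.Man

/-!
# P204 bridge: oriented graph charts of an embedded manifold
-/

open Function Set Filter Matrix
open scoped Manifold ContDiff Topology

namespace Vale.Agent.P204.General

open Vale.Agent.P204.Torus

universe u
variable {X : Type u} [TopologicalSpace X] [ChartedSpace R4 X] [IsManifold (𝓡 4) ∞ X] {N : ℕ}

/-- A graph chart at `x₀` of the embedded manifold. -/
structure PreChart (e : X → Amb N) (x₀ : X) where
  /-- The linear part. -/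
  L : Matrix (Fin 4) (Fin N) ℝ
  /-- The coordinates in the chart at `x₀`. -/
  g : Pt → R4
  /-- The parametrisation. -/
  psi : Pt → Amb N
  g_mem : ∀ p ∈ box, g p ∈ (extChartAt (𝓡 4) x₀).target
  g_smooth : ContDiffOn ℝ ∞ g box
  psi_smooth : ContDiff ℝ ∞ psi
  psi_eq : ∀ p ∈ box, psi p = embRead e x₀ (g p)
  left_inv : ∀ p ∈ box, L *ᵥ (psi p - e x₀) = p
  open_image : ∀ W : Set Pt, IsOpen W → W ⊆ box → ∃ U, IsOpen U ∧ range e ∩ U = psi '' W
  center : e x₀ ∈ psi '' Metric.ball 0 (1 / 2)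

/-- The endomorphism field in a graph chart. -/
noncomputable def PreChart.jm {e : X → Amb N} {x₀ : X} (c : PreChart e x₀) (J : EndField X)
    (p : Pt) : M4 :=
  LinearMap.toMatrix' ((Matrix.mulVecLin c.L).comp ((fderiv ℝ (embRead e x₀) (c.g p)).toLinearMap.comp
    ((jCoord J x₀ (c.g p)).toLinearMap.comp (fderiv ℝ c.g p).toLinearMap)))

omit [IsManifold (𝓡 4) ∞ X] in
theorem PreChart.jm_mulVec {e : X → Amb N} {x₀ : X} (c : PreChart e x₀) (J : EndField X)
    (p v : Pt) : c.jm J p *ᵥ v =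
      c.L *ᵥ fderiv ℝ (embRead e x₀) (c.g p) (jCoord J x₀ (c.g p) (fderiv ℝ c.g p v)) := by
  simp [PreChart.jm, LinearMap.toMatrix'_mulVec]

theorem exists_preChart [CompactSpace X] [T2Space X] {e : X → Amb N}
    (he : ContMDiff (𝓡 4) 𝓘(ℝ, Amb N) ∞ e) (hi : Injective e)
    (hd : ∀ x, Injective (embDeriv e x)) (x₀ : X) : Nonempty (PreChart e x₀) := by
  set φ := extChartAt (𝓡 4) x₀ with hφ
  set f := embRead e x₀ with hf_def
  set q₀ := φ x₀ with hq₀_def
  set iot : R4 ≃L[ℝ] Pt := EuclideanSpace.equiv (Fin 4) ℝ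
  have hT : IsOpen φ.target := isOpen_extChartAt_target x₀
  have hq₀ : q₀ ∈ φ.target := mem_extChartAt_target x₀
  have hf : ContDiffOn ℝ ∞ f φ.target := embRead_smooth he x₀
  have hfq : f q₀ = e x₀ := congrArg e (φ.left_inv (mem_extChartAt_source x₀))
  have hinjA : Injective (fderiv ℝ f q₀) := by
    intro v w h
    rw [embRead_deriv he x₀ hq₀, embRead_deriv he x₀ hq₀] at h
    have h1 := congrArg (mfderiv (𝓡 4) (𝓡 4) φ (φ.symm q₀)) (hd _ h)
    exact (DFunLike.congr_fun (chartInvDeriv_left x₀ hq₀) v).symm.trans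
      (h1.trans (DFunLike.congr_fun (chartInvDeriv_left x₀ hq₀) w))
  obtain ⟨G, hG⟩ := (fderiv ℝ f q₀).toLinearMap.exists_leftInverse_of_injective
    (LinearMap.ker_eq_bot.2 hinjA)
  set Li : Amb N →ₗ[ℝ] Pt := iot.toLinearMap.comp G
  set Lc : Amb N →L[ℝ] Pt := LinearMap.toContinuousLinearMap Li
  set Φ : R4 → Pt := fun q => Lc (f q - e x₀) with hΦ_def
  have hΦ : ContDiffOn ℝ ∞ Φ φ.target := Lc.contDiff.comp_contDiffOn (hf.sub contDiffOn_const)
  have hΦat : ∀ q ∈ φ.target, ContDiffAt ℝ ∞ Φ q := fun q hq => hΦ.contDiffAt (hT.mem_nhds hq)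
  have hΦd : HasFDerivAt Φ (iot : R4 →L[ℝ] Pt) q₀ := by
    have h := Lc.hasFDerivAt.comp q₀
      ((((hf.contDiffAt (hT.mem_nhds hq₀)).differentiableAt (by norm_num)).hasFDerivAt).sub_const
        (e x₀))
    refine h.congr_fderiv (ContinuousLinearMap.ext fun v => ?_)
    exact congrArg iot (DFunLike.congr_fun hG v)
  set P := (hΦat q₀ hq₀).toOpenPartialHomeomorph Φ hΦd (by norm_num) with hP
  have hPc : ⇑P = Φ := rfl
  have hP₀ : q₀ ∈ P.source :=
    (hΦat q₀ hq₀).mem_toOpenPartialHomeomorph_source hΦd (by norm_num)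
  set O := P.source ∩ (φ.target ∩
    (fderiv ℝ Φ) ⁻¹' range ((↑) : (R4 ≃L[ℝ] Pt) → R4 →L[ℝ] Pt)) with hO_def
  have hO : IsOpen O := P.open_source.inter
    ((hΦ.continuousOn_fderiv_of_isOpen hT (by norm_num)).isOpen_inter_preimage hT
      ContinuousLinearEquiv.isOpen)
  have hqO : q₀ ∈ O := ⟨hP₀, hq₀, iot, hΦd.fderiv.symm⟩
  have hΦ0 : Φ q₀ = 0 := by simp [hΦ_def, hfq]
  have hS : IsOpen (P '' O) := P.isOpen_image_of_subset_source hO inter_subset_left
  obtain ⟨δ, hδ, hball⟩ := Metric.isOpen_iff.1 hS 0 ⟨q₀, hqO, by rw [hPc, hΦ0]⟩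
  set r := δ / 3
  have hr : 0 < r := by positivity
  have hmem : ∀ p : Pt, p ∈ Metric.ball (0 : Pt) 3 → r • p ∈ P '' O := fun p hp => hball <| by
    rw [mem_ball_zero_iff] at hp ⊢
    rw [norm_smul, Real.norm_eq_abs, abs_of_pos hr]
    calc r * ‖p‖ < r * 3 := mul_lt_mul_of_pos_left hp hr
      _ = δ := by ring
  have hsymm : ∀ y ∈ P '' O, P.symm y ∈ O ∧ y ∈ P.target := by
    rintro _ ⟨q, hq, rfl⟩
    exact ⟨by rw [P.left_inv hq.1]; exact hq, P.map_source hq.1⟩
  set g : Pt → R4 := fun p => P.symm (r • p) with hg_def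
  have hgsm : ∀ p ∈ Metric.ball (0 : Pt) 3, ContDiffAt ℝ ∞ g p := fun p hp => by
    obtain ⟨⟨hs, ht, E, hE⟩, htg⟩ := hsymm _ (hmem p hp)
    have h1 : HasFDerivAt Φ (E : R4 →L[ℝ] Pt) (P.symm (r • p)) := by
      rw [hE]
      exact ((hΦat _ ht).differentiableAt (by norm_num)).hasFDerivAt
    exact (P.contDiffAt_symm htg (by rw [hPc]; exact h1) (by rw [hPc]; exact hΦat _ ht)).comp p
      (contDiff_id.const_smul r).contDiffAt
  have hgT : ∀ p ∈ Metric.ball (0 : Pt) 3, g p ∈ φ.target := fun p hp => (hsymm _ (hmem p hp)).1.2.1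
  let bp : ContDiffBump (0 : Pt) := ⟨1, 2, one_pos, one_lt_two⟩
  set psi : Pt → Amb N := fun p => e x₀ + bp p • (f (g p) - e x₀) with hpsi_def
  have hb3 : box ⊆ Metric.ball (0 : Pt) 3 := Metric.ball_subset_ball (by norm_num)
  have hpeq : ∀ p ∈ box, psi p = f (g p) := fun p hp => by
    simp only [hpsi_def]
    rw [bp.one_of_mem_closedBall (Metric.ball_subset_closedBall hp)]
    simp
  have hg0 : g 0 = q₀ := by
    simp only [hg_def, smul_zero]
    rw [← hΦ0, ← hPc, P.left_inv hP₀]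
  refine ⟨{ L := r⁻¹ • LinearMap.toMatrix' Li, g := g, psi := psi,
            g_mem := fun p hp => hgT p (hb3 hp),
            g_smooth := fun p hp => (hgsm p (hb3 hp)).contDiffWithinAt,
            psi_smooth := ?_, psi_eq := hpeq, left_inv := ?_, open_image := ?_, center := ?_ }⟩
  · refine contDiff_iff_contDiffAt.2 fun p => ?_
    by_cases hp : p ∈ Metric.ball (0 : Pt) 3
    · exact contDiffAt_const.add (bp.contDiffAt.smul
        ((((hf.contDiffAt (hT.mem_nhds (hgT p hp))).comp p (hgsm p hp))).sub contDiffAt_const))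
    · refine contDiffAt_const (c := e x₀) |>.congr_of_eventuallyEq ?_
      have hout : (Metric.closedBall (0 : Pt) 2)ᶜ ∈ 𝓝 p :=
        Metric.isClosed_closedBall.isOpen_compl.mem_nhds fun h =>
          hp (Metric.closedBall_subset_ball (by norm_num) h)
      filter_upwards [hout] with q hq
      have : bp q = 0 := bp.zero_of_le_dist (le_of_lt (not_le.1 hq))
      simp [hpsi_def, this]
  · intro p hp
    have h1 : Φ (g p) = r • p := by
      have := P.right_inv (hsymm _ (hmem p (hb3 hp))).2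
      rwa [hPc] at this
    rw [hpeq p hp, smul_mulVec, LinearMap.toMatrix'_mulVec]
    change r⁻¹ • Φ (g p) = p
    rw [h1, inv_smul_smul₀ hr.ne']
  · intro W hW hWb
    have hV1 : IsOpen ((fun p : Pt => r • p) '' W) :=
      (Homeomorph.smulOfNeZero r hr.ne').isOpenMap W hW
    have hV : IsOpen (g '' W) := by
      rw [hg_def, ← image_image P.symm (fun p : Pt => r • p)]
      refine P.symm.isOpen_image_of_subset_source hV1 ?_
      rintro _ ⟨p, hp, rfl⟩
      exact (hsymm _ (hmem p (hb3 (hWb hp)))).2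
    have hgW : g '' W ⊆ φ.target := image_subset_iff.2 fun p hp => hgT p (hb3 (hWb hp))
    have hM : IsOpen (φ.symm '' (g '' W)) := by
      rw [φ.symm_image_eq_source_inter_preimage hgW]
      simpa [hφ, extChartAt_source] using isOpen_extChartAt_preimage (I := 𝓡 4) x₀ hV
    obtain ⟨U, hU, hUe⟩ :=
      (he.continuous.isClosedEmbedding hi).isInducing.isOpen_iff.1 hM
    refine ⟨U, hU, ?_⟩
    rw [← image_preimage_eq_range_inter, hUe, image_image, image_image]
    exact image_congr fun p hp => (hpeq p (hWb hp)).symm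
  · exact ⟨0, Metric.mem_ball_self (by norm_num), by
      rw [hpeq 0 (Metric.mem_ball_self one_pos), hg0, hfq]⟩

/-- A graph chart in which the complex orientation is positive. -/
theorem exists_orientedChart [CompactSpace X] [T2Space X] {e : X → Amb N}
    (he : ContMDiff (𝓡 4) 𝓘(ℝ, Amb N) ∞ e) (hi : Injective e)
    (hd : ∀ x, Injective (embDeriv e x)) {J : EndField X} (hJ : IsAlmostComplexStructure J)
    (x₀ : X) (hsq : ∀ c : PreChart e x₀, ∀ p ∈ box, c.jm J p * c.jm J p = -1) :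
    ∃ c : PreChart e x₀, ∀ p ∈ box, ∀ M : M4, Mᵀ = -M →
      (c.jm J p)ᵀ * M * c.jm J p = -M → 0 ≤ wedge M M := by
  obtain ⟨c⟩ := exists_preChart he hi hd x₀
  have hcont : ∀ i k, ContinuousOn (fun p => c.jm J p i k) box := fun i k => by
    have h1 := ((embRead_smooth he x₀).continuousOn_fderiv_of_isOpen (isOpen_extChartAt_target x₀)
      (by norm_num)).comp c.g_smooth.continuousOn c.g_mem
    have h2 := (jCoord_smooth hJ x₀).continuousOn.comp c.g_smooth.continuousOn c.g_mem
    have h3 := (c.g_smooth.continuousOn_fderiv_of_isOpen Metric.isOpen_ball (by norm_num))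
    have h4 := h1.clm_apply (h2.clm_apply (h3.clm_apply
      (continuousOn_const (c := (Pi.single k 1 : Pt)))))
    have h5 : ContinuousOn (fun p => c.jm J p *ᵥ Pi.single k 1) box := by
      simp only [PreChart.jm_mulVec]
      exact (Matrix.mulVecLin c.L).toContinuousLinearMap.continuous.comp_continuousOn h4
    simpa using (continuousOn_pi.1 h5 i)
  obtain ⟨s, hs, hsgn⟩ := oSgn_const (convex_ball (0 : Pt) 1).isPreconnected hcont (hsq c)
  have hss : s * s = 1 := by rcases hs with h | h <;> simp [h]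
  set Q : Pt →L[ℝ] Pt := (Matrix.mulVecLin (flipM s)).toContinuousLinearMap
  have hQn : ∀ p, ‖Q p‖ = ‖p‖ := fun p => by
    have habs : |s| = 1 := by rcases hs with h | h <;> simp [h]
    have hk : ∀ p k, |(flipM s *ᵥ p) k| = |p k| := fun p k => by
      rw [flipM, mulVec_diagonal, abs_mul]
      fin_cases k <;> simp [habs]
    change ‖flipM s *ᵥ p‖ = ‖p‖
    refine le_antisymm ((pi_norm_le_iff_of_nonneg (norm_nonneg p)).2 fun k => ?_)
      ((pi_norm_le_iff_of_nonneg (norm_nonneg _)).2 fun k => ?_)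
    · rw [Real.norm_eq_abs, hk]; exact norm_le_pi_norm p k
    · rw [Real.norm_eq_abs, ← hk]; exact norm_le_pi_norm (flipM s *ᵥ p) k
  have hQQ : ∀ p, Q (Q p) = p := fun p => by
    change flipM s *ᵥ (flipM s *ᵥ p) = p
    rw [mulVec_mulVec, flipM_mul hss, one_mulVec]
  have hQb : ∀ t : ℝ, ∀ p ∈ Metric.ball (0 : Pt) t, Q p ∈ Metric.ball (0 : Pt) t := fun t p hp => by
    rwa [mem_ball_zero_iff, hQn, ← mem_ball_zero_iff]
  let c' : PreChart e x₀ :=
    { L := flipM s * c.L
      g := c.g ∘ Q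
      psi := c.psi ∘ Q
      g_mem := fun p hp => c.g_mem _ (hQb 1 p hp)
      g_smooth := c.g_smooth.comp Q.contDiff.contDiffOn (hQb 1)
      psi_smooth := c.psi_smooth.comp Q.contDiff
      psi_eq := fun p hp => c.psi_eq _ (hQb 1 p hp)
      left_inv := fun p hp => by
        rw [← mulVec_mulVec, Function.comp_apply, c.left_inv _ (hQb 1 p hp)]; exact hQQ p
      open_image := fun W hW hWb => by
        rw [image_comp]
        refine c.open_image _ ?_ (by rintro _ ⟨p, hp, rfl⟩; exact hQb 1 p (hWb hp))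
        have : Q '' W = Q ⁻¹' W := congrFun (image_eq_preimage_of_inverse hQQ hQQ) W
        rw [this]; exact hW.preimage Q.continuous
      center := by
        obtain ⟨p, hp, hpe⟩ := c.center
        exact ⟨Q p, hQb _ p hp, by rw [Function.comp_apply, hQQ, hpe]⟩ }
  refine ⟨c', fun p hp M hM h => ?_⟩
  have hj : c'.jm J p = flipM s * c.jm J (Q p) * flipM s := by
    refine Matrix.toLin'.injective (LinearMap.ext fun v => ?_)
    simp only [Matrix.toLin'_apply, ← mulVec_mulVec, PreChart.jm_mulVec]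
    have hd' : fderiv ℝ (c.g ∘ Q) p = (fderiv ℝ c.g (Q p)).comp Q := by
      rw [fderiv_comp p ((c.g_smooth.contDiffAt (Metric.isOpen_ball.mem_nhds (hQb 1 p hp))).differentiableAt
        (by norm_num)) Q.differentiableAt, Q.fderiv]
    change (flipM s * c.L) *ᵥ fderiv ℝ (embRead e x₀) (c.g (Q p))
      (jCoord J x₀ (c.g (Q p)) (fderiv ℝ (c.g ∘ Q) p v)) = _
    rw [hd', ← mulVec_mulVec]
    rfl
  rw [hj] at h
  exact flip_pos hs (hsq c _ (hQb 1 p hp)) (hsgn _ (hQb 1 p hp)) hM h

end Vale.Agent.P204.General
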