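import Mathlib
import Vale.Agent.P204.General.Bridge.Local

/-!
# P204 bridge: the complex structure and forms in a graph chart
-/

open Function Set Filter Matrix
open scoped Manifold ContDiff Topology

namespace Vale.Agent.P204.General

open Vale.Agent.P204.Torus

universe u
variable {X : Type u} [TopologicalSpace X] [ChartedSpace R4 X] [IsManifold (𝓡 4) ∞ X] {N : ℕ}
  {e : X → Amb N} {x₀ : X}

namespace PreChart

/-- The point with coordinates `p`. -/
noncomputable def pt (c : PreChart e x₀) (p : Pt) : X := (extChartAt (𝓡 4) x₀).symm (c.g p)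

/-- The differential of the chart. -/
noncomputable def D (c : PreChart e x₀) (p u : Pt) : TangentSpace (𝓡 4) (c.pt p) :=
  chartInvDeriv x₀ (c.g p) (fderiv ℝ c.g p u)

omit [IsManifold (𝓡 4) ∞ X] in
theorem psi_pt (c : PreChart e x₀) {p : Pt} (hp : p ∈ box) : c.psi p = e (c.pt p) := c.psi_eq p hp

omit [IsManifold (𝓡 4) ∞ X] in
theorem g_at (c : PreChart e x₀) {p : Pt} (hp : p ∈ box) : ContDiffAt ℝ ∞ c.g p :=
  c.g_smooth.contDiffAt (Metric.isOpen_ball.mem_nhds hp)

theorem psi_deriv (he : ContMDiff (𝓡 4) 𝓘(ℝ, Amb N) ∞ e) (c : PreChart e x₀) {p : Pt}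
    (hp : p ∈ box) (u : Pt) : fderiv ℝ c.psi p u = embDeriv e (c.pt p) (c.D p u) := by
  have h : c.psi =ᶠ[𝓝 p] embRead e x₀ ∘ c.g :=
    eventually_of_mem (Metric.isOpen_ball.mem_nhds hp) c.psi_eq
  rw [h.fderiv_eq, fderiv_comp p (((embRead_smooth he x₀).contDiffAt
    ((isOpen_extChartAt_target x₀).mem_nhds (c.g_mem p hp))).differentiableAt (by norm_num))
    ((c.g_at hp).differentiableAt (by norm_num))]
  exact embRead_deriv he x₀ (c.g_mem p hp) _

omit [IsManifold (𝓡 4) ∞ X] in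
theorem L_psi_deriv (c : PreChart e x₀) {p : Pt} (hp : p ∈ box) (u : Pt) :
    c.L *ᵥ fderiv ℝ c.psi p u = u := by
  have h1 : HasFDerivAt (fun q => (Matrix.mulVecLin c.L).toContinuousLinearMap (c.psi q - e x₀))
      ((Matrix.mulVecLin c.L).toContinuousLinearMap.comp (fderiv ℝ c.psi p)) p :=
    ((Matrix.mulVecLin c.L).toContinuousLinearMap.hasFDerivAt).comp p
      (((c.psi_smooth.differentiable (by norm_num)) p).hasFDerivAt.sub_const _)
  have h2 : HasFDerivAt (fun q => (Matrix.mulVecLin c.L).toContinuousLinearMap (c.psi q - e x₀))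
      (ContinuousLinearMap.id ℝ Pt) p :=
    (hasFDerivAt_id p).congr_of_eventuallyEq
      (eventually_of_mem (Metric.isOpen_ball.mem_nhds hp) fun q hq => c.left_inv q hq)
  exact DFunLike.congr_fun (h1.unique h2) u

variable (he : ContMDiff (𝓡 4) 𝓘(ℝ, Amb N) ∞ e) (c : PreChart e x₀) {p : Pt} (hp : p ∈ box)
include he hp

theorem D_inj : Injective (c.D p) := fun u v h => by
  rw [← c.L_psi_deriv hp u, ← c.L_psi_deriv hp v, c.psi_deriv he hp, c.psi_deriv he hp, h]

theorem D_surj (v : TangentSpace (𝓡 4) (c.pt p)) : ∃ u, c.D p u = v := by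
  have hinj : Injective (fderiv ℝ c.g p).toLinearMap := fun u w h =>
    c.D_inj he hp (congrArg (chartInvDeriv x₀ (c.g p)) h)
  obtain ⟨u, hu⟩ := (LinearMap.injective_iff_surjective_of_finrank_eq_finrank
    (by simp)).1 hinj
      (mfderiv (𝓡 4) (𝓡 4) (extChartAt (𝓡 4) x₀) (c.pt p) v)
  exact ⟨u, (congrArg (chartInvDeriv x₀ (c.g p)) hu).trans
    (DFunLike.congr_fun (chartInvDeriv_right x₀ (c.g_mem p hp)) v)⟩

theorem D_jm (J : EndField X) (u : Pt) :
    c.D p (c.jm J p *ᵥ u) = J (c.pt p) (c.D p u) := by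
  obtain ⟨w, hw⟩ := c.D_surj he hp (J (c.pt p) (c.D p u))
  rw [← hw]
  congr 1
  rw [c.jm_mulVec, embRead_deriv he x₀ (c.g_mem p hp), jCoord_spec J x₀ (c.g_mem p hp)]
  change c.L *ᵥ embDeriv e (c.pt p) (J (c.pt p) (c.D p u)) = w
  rw [← hw, ← c.psi_deriv he hp, c.L_psi_deriv hp]

theorem jm_sq {J : EndField X} (hJ : IsAlmostComplexStructure J) :
    c.jm J p * c.jm J p = -1 := by
  refine Matrix.toLin'.injective (LinearMap.ext fun u => ?_)
  simp only [Matrix.toLin'_apply, ← mulVec_mulVec, neg_mulVec, one_mulVec]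
  refine c.D_inj he hp ?_
  rw [c.D_jm he hp J, c.D_jm he hp J, hJ.1]
  simp only [PreChart.D, map_neg]
  rfl

end PreChart

theorem PreChart.jm_smooth (he : ContMDiff (𝓡 4) 𝓘(ℝ, Amb N) ∞ e) (c : PreChart e x₀)
    {J : EndField X} (hJ : IsAlmostComplexStructure J) (i k : Fin 4) :
    ContDiffOn ℝ ∞ (fun p => c.jm J p i k) box := by
  have h1 := ((embRead_smooth he x₀).fderiv_of_isOpen (m := ∞) (isOpen_extChartAt_target x₀)
    (by norm_num)).comp c.g_smooth c.g_mem
  have h2 := (jCoord_smooth hJ x₀).comp c.g_smooth c.g_mem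
  have h3 := c.g_smooth.fderiv_of_isOpen (m := ∞) Metric.isOpen_ball (by norm_num)
  have h4 := h1.clm_apply (h2.clm_apply (h3.clm_apply
    (contDiffOn_const (c := (Pi.single k 1 : Pt)))))
  have h5 : ContDiffOn ℝ ∞ (fun p => c.jm J p *ᵥ Pi.single k 1) box := by
    simp only [PreChart.jm_mulVec]
    exact (Matrix.mulVecLin c.L).toContinuousLinearMap.contDiff.comp_contDiffOn h4
  simpa using (contDiffOn_pi.1 h5 i)

/-- A two-form in the chart at `c`, as a bilinear field. -/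
noncomputable def omCoord (σ : BilinField X) (c : X) (q : R4) : R4 →L[ℝ] R4 →L[ℝ] ℝ :=
  (show R4 →L[ℝ] R4 →L[ℝ] ℝ from σ ((extChartAt (𝓡 4) c).symm q)).bilinearComp
    (show R4 →L[ℝ] R4 from chartInvDeriv c q) (show R4 →L[ℝ] R4 from chartInvDeriv c q)

omit [IsManifold (𝓡 4) ∞ X] in
theorem omCoord_apply (σ : BilinField X) (c : X) (q v w : R4) :
    omCoord σ c q v w = coeff σ c v w q := rfl

omit [IsManifold (𝓡 4) ∞ X] in
theorem omCoord_closed {σ : BilinField X} (hσ : IsClosedTwoForm σ) (c : X) :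
    ContDiffOn ℝ ∞ (omCoord σ c) (extChartAt (𝓡 4) c).target :=
  contDiffOn_bilin fun v w => (hσ.2 c).1 v w

omit [IsManifold (𝓡 4) ∞ X] in
theorem bilin_alt {σ : BilinField X} (hσ : IsClosedTwoForm σ) (x : X)
    (v w : TangentSpace (𝓡 4) x) : σ x v w = -σ x w v := by
  have := hσ.1 x (v + w)
  simp only [map_add, _root_.add_apply, hσ.1] at this
  linarith

omit [IsManifold (𝓡 4) ∞ X] in
theorem PreChart.pull_smooth (c : PreChart e x₀) {σ : BilinField X} (hσ : IsClosedTwoForm σ)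
    (u w : Pt) : ContDiffOn ℝ ∞ (fun p => σ (c.pt p) (c.D p u) (c.D p w)) box := by
  have h1 := (omCoord_closed hσ x₀).comp c.g_smooth c.g_mem
  have h3 := c.g_smooth.fderiv_of_isOpen (m := ∞) Metric.isOpen_ball (by norm_num)
  exact (h1.clm_apply (h3.clm_apply (contDiffOn_const (c := u)))).clm_apply
    (h3.clm_apply (contDiffOn_const (c := w)))

theorem PreChart.pull_closed (c : PreChart e x₀) {σ : BilinField X} (hσ : IsClosedTwoForm σ)
    {p : Pt} (hp : p ∈ box) (a b d : Pt) :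
    fderiv ℝ (fun q => σ (c.pt q) (c.D q b) (c.D q d)) p a
      + fderiv ℝ (fun q => σ (c.pt q) (c.D q d) (c.D q a)) p b
      + fderiv ℝ (fun q => σ (c.pt q) (c.D q a) (c.D q b)) p d = 0 := by
  have hq := c.g_mem p hp
  have hT := isOpen_extChartAt_target (I := 𝓡 4) x₀
  have ho : DifferentiableAt ℝ (omCoord σ x₀) (c.g p) :=
    ((omCoord_closed hσ x₀).contDiffAt (hT.mem_nhds hq)).differentiableAt (by norm_num)
  refine closed_pullback (om := omCoord σ x₀) ((c.g_at hp).of_le (WithTop.coe_le_coe.2 (le_top : (2 : ℕ∞) ≤ ⊤))) ho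
    (fun v w => bilin_alt hσ _ _ _) (fun u v w => ?_) a b d
  rw [← fderiv_bilin_apply ho, ← fderiv_bilin_apply ho, ← fderiv_bilin_apply ho]
  exact (hσ.2 x₀).2 _ hq u v w

end Vale.Agent.P204.General
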