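import Mathlib
import Vale.Agent.P204.General.Stmts
import Vale.Agent.P204.General.Tangent
import Vale.Agent.P204.General.Bridge.Transfer

/-!
# P204 bridge: from embedded atlases to manifolds
-/

open Function Set Filter Matrix
open scoped Manifold ContDiff Topology

namespace Vale.Agent.P204.General

open Vale.Agent.P204.Torus

universe u

section
variable {X : Type u} [TopologicalSpace X] [ChartedSpace R4 X] [IsManifold (𝓡 4) ∞ X]
  [T2Space X] [CompactSpace X] {N K : ℕ} {e : X → Amb N} {ctr : Fin K → X}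

/-- The atlas of a family of oriented graph charts. -/
noncomputable def mkAtlas (hec : Continuous e) (hne : Nonempty X)
    (C : ∀ i, PreChart e (ctr i)) (chi : Fin K → Amb N → ℝ)
    (h1 : ∀ i, ContDiff ℝ ∞ (chi i)) (h2 : ∀ i x, 0 ≤ chi i x)
    (h3 : ∀ x ∈ range e, ∑ i, chi i x = 1)
    (h4 : ∀ i, ∀ x ∈ range e, chi i x ≠ 0 → x ∈ (C i).psi '' Metric.closedBall 0 (1 / 2)) :
    Atlas N K where
  X := range e
  L i := (C i).L
  o i := e (ctr i)
  psi i := (C i).psi
  chi := chi
  compact := isCompact_range hec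
  nonempty := hne.elim fun x => ⟨e x, x, rfl⟩
  psi_smooth i := (C i).psi_smooth
  psi_mem i p hp := ⟨_, ((C i).psi_eq p hp).symm⟩
  left_inv i := (C i).left_inv
  open_image i := (C i).open_image box isOpen_box subset_rfl
  chi_smooth := h1
  chi_nonneg := h2
  chi_sum := h3
  chi_supp := h4

theorem exists_atlas [Nonempty X] (he : ContMDiff (𝓡 4) 𝓘(ℝ, Amb N) ∞ e) (hi : Injective e)
    (hd : ∀ x, Injective (embDeriv e x)) {J : EndField X} (hJ : IsAlmostComplexStructure J) :
    ∃ (K : ℕ) (ctr : Fin K → X) (C : ∀ i, PreChart e (ctr i)) (chi : Fin K → Amb N → ℝ),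
      (∀ i, ∀ p ∈ box, ∀ M : M4, Mᵀ = -M →
        ((C i).jm J p)ᵀ * M * (C i).jm J p = -M → 0 ≤ wedge M M) ∧
      (∀ i, ContDiff ℝ ∞ (chi i)) ∧ (∀ i x, 0 ≤ chi i x) ∧
      (∀ x ∈ range e, ∑ i, chi i x = 1) ∧
      ∀ i, ∀ x ∈ range e, chi i x ≠ 0 → x ∈ (C i).psi '' Metric.closedBall 0 (1 / 2) := by
  choose C hC using fun x => exists_orientedChart he hi hd hJ x
    fun c p hp => c.jm_sq he hp hJ
  choose U hU hUe using fun x => (C x).open_image (Metric.ball 0 (1 / 2)) Metric.isOpen_ball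
    (Metric.ball_subset_ball (by norm_num))
  have hcov : range e ⊆ ⋃ x, U x := by
    rintro _ ⟨x, rfl⟩
    have := (C x).center
    rw [← hUe x] at this
    exact mem_iUnion.2 ⟨x, this.2⟩
  obtain ⟨t, ht⟩ := (isCompact_range he.continuous).elim_finite_subcover U hU hcov
  let ctr : Fin t.card → X := fun i => (t.equivFin.symm i).1
  have hcov' : range e ⊆ ⋃ i, U (ctr i) := fun y hy => by
    obtain ⟨x, hx, hy'⟩ := mem_iUnion₂.1 (ht hy)
    exact mem_iUnion.2 ⟨t.equivFin ⟨x, hx⟩, by simpa [ctr] using hy'⟩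
  obtain ⟨f, hf⟩ := SmoothPartitionOfUnity.exists_isSubordinate (I := 𝓘(ℝ, Amb N))
    (isCompact_range he.continuous).isClosed (fun i => U (ctr i)) (fun i => hU _) hcov'
  refine ⟨t.card, ctr, fun i => C (ctr i), fun i y => f i y, fun i => hC _,
    fun i => (f i).contMDiff.contDiff, fun i y => f.nonneg i y, fun y hy => ?_, fun i y hy h => ?_⟩
  · rw [← finsum_eq_sum_of_fintype]; exact f.sum_eq_one hy
  · have hyU : y ∈ U (ctr i) := hf i (subset_closure h)
    exact image_mono Metric.ball_subset_closedBall ((hUe _).subset ⟨hy, hyU⟩)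

omit [T2Space X] [CompactSpace X] in
/-- A two-form of the atlas is smooth and closed in every chart of the manifold. -/
theorem read_closed {K : ℕ} (A : Atlas N K) (he : ContMDiff (𝓡 4) 𝓘(ℝ, Amb N) ∞ e)
    (hX : A.X = range e) {s : Amb N → MN N} (hsc : IsClosedX A s) {τ : BilinField X}
    (hτ : ∀ x v w, τ x v w = embDeriv e x v ⬝ᵥ (s (e x) *ᵥ embDeriv e x w)) (c : X) :
    (∀ v w, ContDiffOn ℝ ∞ (coeff τ c v w) (extChartAt (𝓡 4) c).target) ∧
      ∀ p ∈ (extChartAt (𝓡 4) c).target, ∀ a b d : R4,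
        fderiv ℝ (coeff τ c b d) p a + fderiv ℝ (coeff τ c d a) p b +
          fderiv ℝ (coeff τ c a b) p d = 0 := by
  set φ := extChartAt (𝓡 4) c
  set f := embRead e c with hf_def
  have hT : IsOpen φ.target := isOpen_extChartAt_target c
  have hf : ContDiffOn ℝ ∞ f φ.target := embRead_smooth he c
  have main : ∀ q ∈ φ.target, (∀ v w, ContDiffAt ℝ ∞ (coeff τ c v w) q) ∧
      ∀ a b d, fderiv ℝ (coeff τ c b d) q a + fderiv ℝ (coeff τ c d a) q b
        + fderiv ℝ (coeff τ c a b) q d = 0 := by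
    intro q hq
    obtain ⟨i, hx, hx'⟩ : ∃ i, A.chi i (f q) ≠ 0 ∧ f q ∈ A.psi i '' Metric.closedBall 0 (1 / 2) :=
      A.exists_chart (hX.symm.subset ⟨_, rfl⟩)
    obtain ⟨U, hU, hUe⟩ := A.open_image i
    have hqU : f q ∈ U := (hUe.symm.subset (A.mem_box_image hx')).2
    set O := φ.target ∩ f ⁻¹' U with hO_def
    have hO : IsOpen O := hf.continuousOn.isOpen_inter_preimage hT hU
    set h : R4 → Pt := fun z => A.phi i (f z) with hh_def
    have hh : ContDiffOn ℝ ∞ h O :=
      (Matrix.mulVecLin (A.L i)).toContinuousLinearMap.contDiff.comp_contDiffOn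
        ((hf.mono inter_subset_left).sub contDiffOn_const)
    have himg : ∀ z ∈ O, f z ∈ A.psi i '' box := fun z hz => hUe.subset ⟨hX.symm.subset ⟨_, rfl⟩, hz.2⟩
    have hbox : ∀ z ∈ O, h z ∈ box := fun z hz => A.phi_mem i (himg z hz)
    have hcoeff : ∀ v w, ∀ z ∈ O, coeff τ c v w z
        = toBil (A.pull i s (h z)) (fderiv ℝ h z v) (fderiv ℝ h z w) := by
      intro v w z hz
      have hloc : f =ᶠ[𝓝 z] A.psi i ∘ h :=
        eventually_of_mem (hO.mem_nhds hz) fun z' hz' => (A.psi_phi i (himg z' hz')).symm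
      have hdh := ((hh.contDiffAt (hO.mem_nhds hz)).differentiableAt (by norm_num))
      have hdf : ∀ v, fderiv ℝ f z v = A.dmat i (h z) *ᵥ fderiv ℝ h z v := fun v => by
        rw [hloc.fderiv_eq, fderiv_comp z (A.psi_diff i _) hdh, A.dmat_mulVec]
        rfl
      unfold coeff
      rw [hτ, ← embRead_deriv he c hz.1, ← embRead_deriv he c hz.1, toBil_apply]
      change fderiv ℝ f z v ⬝ᵥ (s (f z) *ᵥ fderiv ℝ f z w) = _
      rw [hdf, hdf, hloc.eq_of_nhds]
      simp only [ev, Atlas.pull, Atlas.pullAt, Function.comp_apply]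
      rw [← mulVec_mulVec, ← mulVec_mulVec, dotProduct_mulVec (fderiv ℝ h z v), vecMul_transpose]
    have hqO : q ∈ O := ⟨hq, hqU⟩
    have hs1 : ∀ j k, DifferentiableAt ℝ (fun p => A.pull i s p j k) (h q) := fun j k =>
      ((hsc.smooth i j k).contDiffAt (isOpen_box.mem_nhds (hbox q hqO))).differentiableAt
        (by norm_num)
    have hom : ContDiffOn ℝ ∞ (fun p => toBil (A.pull i s p)) box :=
      contDiffOn_bilin fun v w => by
        simp only [toBil_apply, ev, mulVec, dotProduct]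
        exact ContDiffOn.sum fun j _ => contDiffOn_const.mul
          (ContDiffOn.sum fun k _ => (hsc.smooth i j k).mul contDiffOn_const)
    have hev' : ∀ v w, coeff τ c v w =ᶠ[𝓝 q]
        fun z => toBil (A.pull i s (h z)) (fderiv ℝ h z v) (fderiv ℝ h z w) :=
      fun v w => eventually_of_mem (hO.mem_nhds hqO) (hcoeff v w)
    constructor
    · intro v w
      refine ContDiffAt.congr_of_eventuallyEq ?_ (hev' v w)
      have h1 := hom.comp hh hbox
      have h3 := hh.fderiv_of_isOpen (m := ∞) hO (by norm_num)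
      exact ((h1.clm_apply (h3.clm_apply (contDiffOn_const (c := v)))).clm_apply
        (h3.clm_apply (contDiffOn_const (c := w)))).contDiffAt (hO.mem_nhds hqO)
    · intro a b d
      rw [(hev' b d).fderiv_eq, (hev' d a).fderiv_eq, (hev' a b).fderiv_eq]
      obtain ⟨hd1, hd2⟩ := toBil_closed hs1 (hsc.closed i (h q) (hbox q hqO))
      refine closed_pullback (om := fun p => toBil (A.pull i s p))
        ((hh.contDiffAt (hO.mem_nhds hqO)).of_le (WithTop.coe_le_coe.2 (le_top : (2 : ℕ∞) ≤ ⊤))) hd1 (fun v w => ?_) hd2 a b d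
      simp only [toBil_apply]
      refine ev_swap ?_ v w
      simp [Atlas.pull, Atlas.pullAt, hsc.skew, Matrix.mul_assoc]
  exact ⟨fun v w q hq => ((main q hq).1 v w).contDiffWithinAt, fun q hq => (main q hq).2⟩

end

/-- Embedded atlases suffice for closed manifolds. -/
theorem bridgeStmt : BridgeStmt.{u} := by
  intro hG X _ _ _ _ _ _ _ J hJ hσ
  obtain ⟨σ, hσc, hσt⟩ := hσ
  obtain ⟨N, e₀, he₀, hce, hd₀⟩ := exists_embedding_euclidean_of_compact (I := 𝓡 4) (M := X)
  set eq := EuclideanSpace.equiv (Fin N) ℝ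
  set e : X → Amb N := eq ∘ e₀
  have he : ContMDiff (𝓡 4) 𝓘(ℝ, Amb N) ∞ e := eq.contDiff.contMDiff.comp he₀
  have hi : Injective e := eq.injective.comp hce.injective
  have hd : ∀ x, Injective (embDeriv e x) := fun x => by
    have h := mfderiv_comp x (eq.differentiableAt.mdifferentiableAt)
      ((he₀ x).mdifferentiableAt (by norm_num))
    rw [embDeriv, h, ContinuousLinearEquiv.mfderiv_eq]
    exact eq.injective.comp (hd₀ x)
  obtain ⟨K, ctr, C, chi, hpos, h1, h2, h3, h4⟩ := exists_atlas he hi hd hJ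
  set A := mkAtlas he.continuous inferInstance C chi h1 h2 h3 h4
  choose LI hLI using fun x => (embDeriv e x).toLinearMap.exists_leftInverse_of_injective
    (LinearMap.ker_eq_bot.2 (hd x))
  have hLI' : ∀ x v, LI x (embDeriv e x v) = v := fun x v => DFunLike.congr_fun (hLI x) v
  have hdmat : ∀ i, ∀ p ∈ box, ∀ u, A.dmat i p *ᵥ u = embDeriv e ((C i).pt p) ((C i).D p u) :=
    fun i p hp u => (A.dmat_mulVec i p u).trans ((C i).psi_deriv he hp u)
  have hinv : ∀ i, ∀ p ∈ box, invFun e (A.psi i p) = (C i).pt p := fun i p hp => by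
    change invFun e ((C i).psi p) = _
    rw [(C i).psi_pt hp, leftInverse_invFun hi]
  set Jm : Amb N → MN N := fun y => LinearMap.toMatrix' ((embDeriv e (invFun e y)).toLinearMap.comp
    ((J (invFun e y)).toLinearMap.comp (LI (invFun e y)))) * A.proj y with hJm_def
  have htan : ∀ i, ∀ p ∈ box, ∀ u,
      Jm (A.psi i p) *ᵥ (A.dmat i p *ᵥ u) = A.dmat i p *ᵥ ((C i).jm J p *ᵥ u) := by
    intro i p hp u
    simp only [hJm_def]
    rw [← mulVec_mulVec, mulVec_mulVec u (A.proj _), A.proj_dmat i hp,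
      LinearMap.toMatrix'_mulVec, hdmat i p hp, hdmat i p hp, (C i).D_jm he hp]
    generalize hy : A.psi i p = y
    have := hinv i p hp
    rw [hy] at this
    rw [this]
    exact congrArg (fun v => embDeriv e _ (J _ v)) (hLI' _ _)
  have hjc : ∀ i, ∀ p ∈ box, A.jc Jm i p = (C i).jm J p := fun i p hp => by
    refine Matrix.toLin'.injective (LinearMap.ext fun u => ?_)
    simp only [Matrix.toLin'_apply, Atlas.jc, ← mulVec_mulVec]
    rw [htan i p hp, A.L_mulVec_dmat i hp]
  have hA : IsACS A Jm :=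
    { tangent := fun i p hp => by
        refine Matrix.toLin'.injective (LinearMap.ext fun u => ?_)
        simp only [Matrix.toLin'_apply, ← mulVec_mulVec]
        rw [hjc i p hp, htan i p hp]
      sq := fun i p hp => by rw [hjc i p hp, (C i).jm_sq he hp hJ]
      smooth := fun i j k => ((C i).jm_smooth he hJ j k).congr fun p hp => by rw [hjc i p hp]
      normal := fun y hy => by simp only [hJm_def, Matrix.mul_assoc, A.proj_proj hy]
      pos := fun i p hp M hM h => hpos i p hp M hM (by rwa [hjc i p hp] at h) }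
  set F : Amb N → MN N := fun y => LinearMap.toMatrix₂' ℝ
    (LinearMap.compl₁₂ (LinearMap.mk₂ ℝ (fun v w => σ (invFun e y) v w)
      (by intros; simp) (by intros; simp) (by intros; simp) (by intros; simp))
      (LI (invFun e y)) (LI (invFun e y))) with hF_def
  have hev : ∀ i, ∀ p ∈ box, ∀ u w, ev (A.pull i F p) u w
      = σ ((C i).pt p) ((C i).D p u) ((C i).D p w) := by
    intro i p hp u w
    have e1 : ev (A.pull i F p) u w = (A.dmat i p *ᵥ u) ⬝ᵥ (F (A.psi i p) *ᵥ (A.dmat i p *ᵥ w)) := by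
      simp only [ev, Atlas.pull, Atlas.pullAt]
      rw [← mulVec_mulVec, ← mulVec_mulVec, dotProduct_mulVec u, vecMul_transpose]
    rw [e1, hdmat i p hp, hdmat i p hp, ← Matrix.toLinearMap₂'_apply']
    simp only [hF_def, Matrix.toLinearMap₂'_toMatrix', LinearMap.compl₁₂_apply,
      LinearMap.mk₂_apply]
    rw [hinv i p hp, hLI', hLI']
  have hFskew : ∀ y, (F y)ᵀ = -F y := fun y => by
    ext a b
    simp only [hF_def, transpose_apply, Matrix.neg_apply, LinearMap.toMatrix₂'_apply,
      LinearMap.compl₁₂_apply, LinearMap.mk₂_apply]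
    exact bilin_alt hσc _ _ _
  have hFe : ∀ i j k, ∀ p ∈ box, A.pull i F p j k
      = σ ((C i).pt p) ((C i).D p (Pi.single j 1)) ((C i).D p (Pi.single k 1)) :=
    fun i j k p hp => by rw [← ev_single (A.pull i F p) j k, hev i p hp]
  have hFc : IsClosedX A F :=
    { skew := hFskew
      smooth := fun i j k =>
        ((C i).pull_smooth hσc (Pi.single j 1) (Pi.single k 1)).congr (hFe i j k)
      closed := fun i p hp a b d => by
        have h : ∀ a b d : Fin 4, pd a (fun q => A.pull i F q b d) p = fderiv ℝ (fun q =>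
            σ ((C i).pt q) ((C i).D q (Pi.single b 1)) ((C i).D q (Pi.single d 1))) p
              (Pi.single a 1) := fun a b d => by
          unfold pd
          rw [Filter.EventuallyEq.fderiv_eq (f := fun q => σ ((C i).pt q) ((C i).D q (Pi.single b 1))
            ((C i).D q (Pi.single d 1))) (eventually_of_mem (Metric.isOpen_ball.mem_nhds hp) (hFe i b d))]
        rw [h, h, h]
        exact (C i).pull_closed hσc hp _ _ _ }
  have hFt : TamesX A Jm F := fun i p hp v hv => by
    rw [hev i p hp, hjc i p hp, (C i).D_jm he hp]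
    exact hσt _ _ fun h => hv ((C i).D_inj he hp (h.trans (by simp only [PreChart.D, map_zero]; rfl)))
  obtain ⟨s, hsc, hst, hsi⟩ := hG A Jm hA ⟨F, hFc, hFt⟩
  set τ : BilinField X := fun x => (LinearMap.toContinuousBilinearMap
    (Matrix.toLinearMap₂' ℝ (s (e x)))).bilinearComp
      (show R4 →L[ℝ] Amb N from embDeriv e x) (show R4 →L[ℝ] Amb N from embDeriv e x) with hτ_def
  have hτ : ∀ x v w, τ x v w = embDeriv e x v ⬝ᵥ (s (e x) *ᵥ embDeriv e x w) := fun x v w => by
    simp only [hτ_def]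
    change Matrix.toLinearMap₂' ℝ (s (e x)) (embDeriv e x v) (embDeriv e x w) = _
    exact Matrix.toLinearMap₂'_apply' _ _ _
  have hτev : ∀ i, ∀ p ∈ box, ∀ u w,
      τ ((C i).pt p) ((C i).D p u) ((C i).D p w) = ev (A.pull i s p) u w := by
    intro i p hp u w
    rw [hτ, ← hdmat i p hp, ← hdmat i p hp, ← (C i).psi_pt hp]
    simp only [ev, Atlas.pull, Atlas.pullAt]
    rw [← mulVec_mulVec, ← mulVec_mulVec, dotProduct_mulVec u, vecMul_transpose]
    rfl
  have hcover : ∀ x, ∃ i, ∃ p ∈ box, (C i).pt p = x := fun x => by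
    obtain ⟨i, -, p, hp, hpe⟩ := A.exists_chart ⟨x, rfl⟩
    exact ⟨i, p, closedBall_subset_box hp,
      hi (((C i).psi_pt (closedBall_subset_box hp)).symm.trans hpe)⟩
  refine ⟨τ, ⟨fun x v => ?_, fun c => ?_⟩, fun x v hv => ?_, fun x v w => ?_⟩
  · obtain ⟨i, p, hp, rfl⟩ := hcover x
    obtain ⟨u, rfl⟩ := (C i).D_surj he hp v
    rw [hτev i p hp]
    refine ev_self ?_ u
    simp [Atlas.pull, Atlas.pullAt, hsc.skew, Matrix.mul_assoc]
  · exact read_closed A he rfl hsc hτ c
  · obtain ⟨i, p, hp, rfl⟩ := hcover x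
    obtain ⟨u, rfl⟩ := (C i).D_surj he hp v
    rw [← (C i).D_jm he hp, hτev i p hp, ← hjc i p hp]
    exact hst i p hp u fun h => hv (by simp only [h, PreChart.D, map_zero]; rfl)
  · obtain ⟨i, p, hp, rfl⟩ := hcover x
    obtain ⟨u, rfl⟩ := (C i).D_surj he hp v
    obtain ⟨t, rfl⟩ := (C i).D_surj he hp w
    rw [← (C i).D_jm he hp, ← (C i).D_jm he hp, hτev i p hp, hτev i p hp, ← hjc i p hp,
      ← ev_pullback, hsi i p hp]

end Vale.Agent.P204.General
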